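import Vale.Agent.P166.Main.Free
import Vale.Agent.P166.Statement.Bridge

/-!
At every temperature and for every limiting spectral law the pressure converges in mean square to
a limit given by explicit variational values.
-/

open MeasureTheory Filter Topology Matrix Vale.Agent.P166

namespace Vale.Agent.Results.P166.PressureFormula

/-- The Ising pressure of the coupling matrix `Uᵀ diag(a) U`, uniform spin prior, diagonal
included. -/
noncomputable def pressure {N : ℕ} (β : ℝ) (a : Fin N → ℝ) (U : Fin N → Fin N → ℝ) : ℝ :=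
  1 / (N : ℝ) * Real.log (((2 : ℝ) ^ N)⁻¹ * ∑ σ : Fin N → Bool,
    Real.exp (β / 2 * ((fun k => if σ k then (1 : ℝ) else -1) ⬝ᵥ
      (((Matrix.of U)ᵀ * Matrix.diagonal a * Matrix.of U) *ᵥ fun k => if σ k then (1 : ℝ) else -1))))

/-- For every `β > 0` and every law `μ` on `[a, b]` with `b` the top of its support, the
variational values of the grids converge to a number `L`, and the pressure tends to `L` in mean
square for rotations with a left-invariant law on the orthogonal group and every admissible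
sequence of spectra. -/
theorem result (μ : Measure ℝ) [IsProbabilityMeasure μ] (a b β : ℝ) (hβ : 0 < β)
    (hμ : ∀ᵐ x ∂μ, x ∈ Set.Icc a b) (he : ∀ η, 0 < η → 0 < μ (Set.Ioi (b - η))) :
    ∃ L : ℝ, Tendsto (Statement.gridValue μ a b β) atTop (𝓝 L) ∧
      ∀ (law : ∀ N : ℕ, Measure (Fin N → Fin N → ℝ)),
        (∀ N, IsProbabilityMeasure (law N)) →
        (∀ N, ∀ᵐ U ∂law N, (Matrix.of U)ᵀ * Matrix.of U = 1) →
        (∀ N (Q : Matrix (Fin N) (Fin N) ℝ), Qᵀ * Q = 1 →
          (law N).map (fun U i k => (Q * Matrix.of U) i k) = law N) →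
        ∀ (R : ℝ) (lam : ∀ N : ℕ, Fin N → ℝ),
          (∀ f : ℝ → ℝ, Continuous f → (∃ C, ∀ x, |f x| ≤ C) →
            Tendsto (fun N : ℕ => (∑ i, f (lam N i)) / N) atTop (𝓝 (∫ x, f x ∂μ))) →
          (∀ η, 0 < η → ∀ᶠ N in atTop, ∀ i, lam N i ≤ b + η) →
          (∀ᶠ N in atTop, ∀ i, -R ≤ lam N i) →
          Tendsto (fun N : ℕ => ∫ U, (pressure β (lam N) U - L) ^ 2 ∂law N) atTop (𝓝 0) := by
  obtain ⟨L, hL, h⟩ := Main.flat_formula Main.freeFormula hμ he hβ
  refine ⟨L, hL.congr fun n => (Statement.gridValue_eq μ a b β n).symm, fun law hp horth hinv R lam hweak htop hbot => ?_⟩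
  have key : ∀ {N : ℕ} (a : Fin N → ℝ) (U : Fin N → Fin N → ℝ), pressure β a U = pr β a U := by
    intro N a U
    simp only [pressure, pr, wgt]
    congr 3
    refine Finset.sum_congr rfl fun σ _ => ?_
    rw [← Matrix.mulVec_mulVec, ← Matrix.mulVec_mulVec, Matrix.dotProduct_mulVec, Matrix.vecMul_transpose]
    congr 2
    simp only [dotProduct, Matrix.mulVec_diagonal, comp2, spin]
    refine Finset.sum_congr rfl fun i _ => ?_
    simp only [Matrix.mulVec, dotProduct, Matrix.of_apply]
    ring
  simp only [key]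
  exact h law hp (fun N => ⟨horth N, hinv N⟩) R lam ⟨hweak, htop, hbot⟩

end Vale.Agent.Results.P166.PressureFormula
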